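import Vale.Agent.P269A.IF
import Vale.Agent.P269C.Defs

/-!
# P269, block C: the algebra of the string and dilaton equations

`A` is the ring of closed forms on the universal curve, `B` the ring of closed forms on the base.
-/

noncomputable section

namespace Vale.Agent.P269CX

open Finset

/-- The abstract data: integrals, the pull back `p` by the projection, the pull backs `s i` by the
sections, the forms `y i` of the curve with one more point, the forms `ψ i` of the base. -/
structure Tel (A B L : Type) [CommRing A] [CommRing B] where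
  IX : A →+ ℂ
  IB : B →+ ℂ
  p : B →+* A
  s : L → A →+* B
  y : L → A
  ψ : L → B
  sp : ∀ i b c, IB ((s i (p b) - b) * c) = 0
  pl : ∀ i a, IX ((y i - p (ψ i)) * a) = IB (s i a)
  r1 : ∀ i c, IB (s i (y i) * c) = 0
  r2 : ∀ i j, i ≠ j → ∀ c, IB ((s i (y j) - ψ j) * c) = 0

namespace Tel

variable {A B L : Type} [CommRing A] [CommRing B] (T : Tel A B L)

/-- The kernel of the pairing. -/
def N : Ideal B where
  carrier := {b | ∀ c, T.IB (b * c) = 0}
  add_mem' := fun {a b} ha hb c => by rw [add_mul, map_add, ha c, hb c, add_zero]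
  zero_mem' := fun c => by rw [zero_mul, map_zero]
  smul_mem' := fun r b hb c => by
    rw [smul_eq_mul, mul_comm r, mul_assoc]
    exact hb _

/-- The quotient map. -/
abbrev q : B →+* B ⧸ T.N := Ideal.Quotient.mk T.N

theorem IB_eq {b b' : B} (h : T.q b = T.q b') : T.IB b = T.IB b' := by
  have h1 := Ideal.Quotient.eq.1 h 1
  rwa [mul_one, map_sub, sub_eq_zero] at h1

theorem q_sp (i : L) (b : B) : T.q (T.s i (T.p b)) = T.q b := Ideal.Quotient.eq.2 (T.sp i b)

theorem q_r1 (i : L) : T.q (T.s i (T.y i)) = 0 := Ideal.Quotient.eq_zero_iff_mem.2 (T.r1 i)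

theorem q_r2 {i j : L} (h : i ≠ j) : T.q (T.s i (T.y j)) = T.q (T.ψ j) :=
  Ideal.Quotient.eq.2 (T.r2 i j h)

theorem one (k : L) (n : ℕ) (a : A) : T.IX (a * T.y k ^ n) = T.IX (a * T.p (T.ψ k) ^ n) +
    if n = 0 then 0 else T.IB (T.s k a * T.ψ k ^ (n - 1)) := by
  induction n generalizing a with
  | zero => simp
  | succ n ih =>
    have e1 : a * T.y k ^ (n + 1) =
        (T.y k - T.p (T.ψ k)) * (a * T.y k ^ n) + a * T.p (T.ψ k) * T.y k ^ n := by ring
    have e2 : a * T.p (T.ψ k) * T.p (T.ψ k) ^ n = a * T.p (T.ψ k) ^ (n + 1) := by ring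
    rw [e1, map_add, T.pl, ih, e2, if_neg (Nat.succ_ne_zero n), Nat.add_sub_cancel]
    rcases n with _ | n
    · simp [add_comm]
    · have h1 : T.IB (T.s k (a * T.y k ^ (n + 1))) = T.IB 0 :=
        T.IB_eq (by simp [T.q_r1])
      have h2 : T.IB (T.s k (a * T.p (T.ψ k)) * T.ψ k ^ (n + 1 - 1)) =
          T.IB (T.s k a * T.ψ k ^ (n + 1)) :=
        T.IB_eq (by simp only [map_mul, map_pow, T.q_sp, Nat.add_sub_cancel]; ring)
      rw [h1, h2, map_zero, zero_add, if_neg (Nat.succ_ne_zero n)]

variable [DecidableEq L]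

theorem all (m : L → ℕ) (S : Finset L) (a : A) : T.IX (a * ∏ i ∈ S, T.y i ^ m i) =
    T.IX (a * ∏ i ∈ S, T.p (T.ψ i) ^ m i) + ∑ i ∈ S, if m i = 0 then 0 else
      T.IB (T.s i a * ∏ j ∈ S, T.ψ j ^ Function.update m i (m i - 1) j) := by
  induction S using Finset.induction_on generalizing a with
  | empty => simp
  | insert k S hk ih =>
    rw [prod_insert hk, ← mul_assoc, ih, prod_insert hk, sum_insert hk, mul_right_comm, T.one,
      mul_right_comm, mul_assoc, add_assoc]
    have h1 : T.IB (T.s k (a * ∏ i ∈ S, T.p (T.ψ i) ^ m i) * T.ψ k ^ (m k - 1)) =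
        T.IB (T.s k a * ∏ j ∈ insert k S, T.ψ j ^ Function.update m k (m k - 1) j) := by
      refine T.IB_eq ?_
      have h2 : ∏ j ∈ S, T.ψ j ^ Function.update m k (m k - 1) j = ∏ j ∈ S, T.ψ j ^ m j :=
        prod_congr rfl fun j hj => by
          rw [Function.update_of_ne (by rintro rfl; exact hk hj)]
      rw [prod_insert hk, h2, Function.update_self]
      simp only [map_mul, map_pow, map_prod, T.q_sp]
      ring
    have h3 : ∀ i ∈ S, (if m i = 0 then 0 else T.IB (T.s i (a * T.y k ^ m k) *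
        ∏ j ∈ S, T.ψ j ^ Function.update m i (m i - 1) j)) = if m i = 0 then 0 else
        T.IB (T.s i a * ∏ j ∈ insert k S, T.ψ j ^ Function.update m i (m i - 1) j) := by
      intro i hi
      have hik : i ≠ k := by rintro rfl; exact hk hi
      refine if_congr Iff.rfl rfl (T.IB_eq ?_)
      rw [prod_insert hk, Function.update_of_ne hik.symm]
      simp only [map_mul, map_pow, T.q_r2 hik]
      ring
    rw [h1, sum_congr rfl h3]

variable [Fintype L]

/-- **The string equation.** -/
theorem str (f0 : ∀ b, T.IX (T.p b) = 0) (m : L → ℕ) (b : B) :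
    T.IX (T.p b * ∏ i, T.y i ^ m i) = ∑ i, if m i = 0 then 0 else
      T.IB (b * ∏ j, T.ψ j ^ Function.update m i (m i - 1) j) := by
  have h1 : T.p b * ∏ i, T.p (T.ψ i) ^ m i = T.p (b * ∏ i, T.ψ i ^ m i) := by
    simp only [map_mul, map_prod, map_pow]
  rw [T.all, h1, f0, zero_add]
  refine sum_congr rfl fun i _ => if_congr Iff.rfl rfl (T.IB_eq ?_)
  simp only [map_mul, T.q_sp]

/-- **The dilaton equation.** -/
theorem dil {y0 : A} {κ : ℂ} (r0 : ∀ i c, T.IB (T.s i y0 * c) = 0)
    (f1 : ∀ b, T.IX (y0 * T.p b) = κ * T.IB b) (m : L → ℕ) :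
    T.IX (y0 * ∏ i, T.y i ^ m i) = κ * T.IB (∏ i, T.ψ i ^ m i) := by
  have h1 : ∏ i, T.p (T.ψ i) ^ m i = T.p (∏ i, T.ψ i ^ m i) := by
    simp only [map_prod, map_pow]
  rw [T.all, h1, f1, sum_eq_zero fun i _ => by rw [r0, ite_self], add_zero]

end Tel

/-! ### Lists -/

theorem low_sum (f : List ℕ → ℂ) (ms : List ℕ) : ((P269A.low ms).map f).sum =
    ∑ i : Fin ms.length, if ms.get i = 0 then 0 else f (ms.set i (ms.get i - 1)) := by
  induction ms generalizing f with
  | nil => simp [P269A.low]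
  | cons m ms ih =>
    rcases m with _ | m
    · rw [P269A.low, List.map_map, ih]
      erw [Fin.sum_univ_succ]
      simp
    · rw [P269A.low, List.map_cons, List.sum_cons, List.map_map, ih]
      erw [Fin.sum_univ_succ]
      simp

open Vale.Agent.P269C MvPolynomial in
/-- The integral with the exponents given by a function. -/
def J (M : Md) (g n : ℕ) (s : 2 < 2 * g + n) (m : Fin n → ℕ) (P : MvPolynomial ℕ ℂ) : ℂ :=
  (M.A g n s).int fun a b => aeval (lam (M.G g) ((M.A g n s).C a) b) P *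
    ∏ i, psi (M.h n) ((M.A g n s).C a) b i ^ m i

open Vale.Agent.P269C in
theorem I_eq (M : Md) (g : ℕ) {n : ℕ} (s : 2 < 2 * g + n) {u : List ℕ} (h : u.length = n)
    (P : MvPolynomial ℕ ℂ) : M.I g u P = J M g n s (fun i => u.get (i.cast h.symm)) P := by
  subst h
  rw [Md.I, dif_pos s]
  rfl

open Vale.Agent.P269C in
/-- `ModOK.string` from the equation for functions. -/
theorem string_of (M : Md) (h : ∀ g n (s : 2 < 2 * g + n) (s' : 2 < 2 * g + (n + 1))
    (m : Fin n → ℕ) P, J M g (n + 1) s' (Fin.cons 0 m) P =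
      ∑ i, if m i = 0 then 0 else J M g n s (Function.update m i (m i - 1)) P)
    (g : ℕ) (ms : List ℕ) (P : MvPolynomial ℕ ℂ) (s : 2 < 2 * g + ms.length) :
    M.I g (0 :: ms) P = ((P269A.low ms).map fun u => M.I g u P).sum := by
  have s' : 2 < 2 * g + (ms.length + 1) := by omega
  have e : (fun i : Fin (ms.length + 1) => (0 :: ms).get (i.cast (List.length_cons).symm)) =
      Fin.cons 0 ms.get := by
    funext i
    refine Fin.cases ?_ (fun j => ?_) i <;> rfl
  rw [low_sum, I_eq M g s' List.length_cons, e, h g _ s s']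
  refine sum_congr rfl fun i _ => if_congr Iff.rfl rfl ?_
  rw [I_eq M g s (List.length_set ..)]
  refine congrArg (fun m => J M g _ s m P) (funext fun j => ?_)
  by_cases hj : j = i
  · subst hj
    simp
  · rw [Function.update_of_ne hj]
    simp [List.getElem_set_ne (fun e => hj (Fin.ext e.symm) : (i : ℕ) ≠ j)]

open Vale.Agent.P269C in
/-- `ModOK.dilaton` from the equation for functions. -/
theorem dilaton_of (M : Md) (h : ∀ n (s : 2 < 2 * 1 + n) (s' : 2 < 2 * 1 + (n + 1))
    (m : Fin n → ℕ), J M 1 (n + 1) s' (Fin.cons 1 m) 1 = n * J M 1 n s m 1)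
    (ms : List ℕ) (s : 0 < ms.length) : M.I 1 (1 :: ms) 1 = ms.length * M.I 1 ms 1 := by
  have s0 : 2 < 2 * 1 + ms.length := by omega
  have s' : 2 < 2 * 1 + (ms.length + 1) := by omega
  have e : (fun i : Fin (ms.length + 1) => (1 :: ms).get (i.cast (List.length_cons).symm)) =
      Fin.cons 1 ms.get := by
    funext i
    refine Fin.cases ?_ (fun j => ?_) i <;> rfl
  rw [I_eq M 1 s' List.length_cons, e, h _ s0 s', I_eq M 1 s0 rfl]
  rfl

end Vale.Agent.P269CX
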