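import Vale.Agent.P269C.Spec

/-!
# P269, block C, row ALG: the algebra of the string and dilaton equations
-/

noncomputable section

namespace Vale.Agent.P269CX

open Finset Vale.Agent.P269C
open scoped Classical

section
variable {T : Type*} {L : Type} [CommMonoid T] {GT : Submonoid T} {y q : L → T} {J : T → ℂ}
  {l : L → T → ℂ}

theorem alg_one (hy : ∀ i, y i ∈ GT) (hq : ∀ i, q i ∈ GT)
    (h1 : ∀ i, ∀ γ ∈ GT, J (y i * γ) = J (q i * γ) + l i γ)
    (h2 : ∀ i, ∀ γ ∈ GT, l i (y i * γ) = 0) (k : L) (n : ℕ) {a : T} (ha : a ∈ GT) :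
    J (a * y k ^ n) = J (a * q k ^ n) + if n = 0 then 0 else l k (a * q k ^ (n - 1)) := by
  induction n generalizing a with
  | zero => simp
  | succ n ih =>
    have e1 : a * y k ^ (n + 1) = y k * (a * y k ^ n) := by rw [pow_succ', mul_left_comm]
    have e2 : q k * (a * y k ^ n) = a * q k * y k ^ n := by rw [← mul_assoc, mul_comm (q k)]
    have e3 : a * q k * q k ^ n = a * q k ^ (n + 1) := by rw [pow_succ', mul_assoc]
    rw [e1, h1 k _ (GT.mul_mem ha (GT.pow_mem (hy k) n)), e2, ih (GT.mul_mem ha (hq k)), e3,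
      if_neg (Nat.succ_ne_zero n), Nat.add_sub_cancel]
    rcases n with _ | n
    · simp
    · have e4 : a * y k ^ (n + 1) = y k * (a * y k ^ n) := by rw [pow_succ', mul_left_comm]
      rw [e4, h2 k _ (GT.mul_mem ha (GT.pow_mem (hy k) n)), add_zero,
        if_neg (Nat.succ_ne_zero n), Nat.add_sub_cancel, mul_assoc, ← pow_succ']

theorem alg_rep (hy : ∀ i, y i ∈ GT) (hq : ∀ i, q i ∈ GT) {i k : L}
    (h3 : ∀ γ ∈ GT, l i (y k * γ) = l i (q k * γ)) (n : ℕ) {a : T} (ha : a ∈ GT) :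
    l i (a * y k ^ n) = l i (a * q k ^ n) := by
  induction n generalizing a with
  | zero => simp
  | succ n ih =>
    have e1 : a * y k ^ (n + 1) = y k * (a * y k ^ n) := by rw [pow_succ', mul_left_comm]
    have e2 : q k * (a * y k ^ n) = a * q k * y k ^ n := by rw [← mul_assoc, mul_comm (q k)]
    rw [e1, h3 _ (GT.mul_mem ha (GT.pow_mem (hy k) n)), e2, ih (GT.mul_mem ha (hq k)),
      mul_assoc, ← pow_succ']

theorem alg_all (hy : ∀ i, y i ∈ GT) (hq : ∀ i, q i ∈ GT)
    (h1 : ∀ i, ∀ γ ∈ GT, J (y i * γ) = J (q i * γ) + l i γ)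
    (h2 : ∀ i, ∀ γ ∈ GT, l i (y i * γ) = 0)
    (h3 : ∀ i j, j ≠ i → ∀ γ ∈ GT, l i (y j * γ) = l i (q j * γ)) (m : L → ℕ) (S : Finset L)
    {a : T} (ha : a ∈ GT) : J (a * ∏ i ∈ S, y i ^ m i) = J (a * ∏ i ∈ S, q i ^ m i) +
      ∑ i ∈ S, if m i = 0 then 0 else
        l i (a * ∏ j ∈ S, q j ^ Function.update m i (m i - 1) j) := by
  induction S using Finset.induction_on generalizing a with
  | empty => simp
  | insert k S hk ih =>
    have hP : ∀ m' : L → ℕ, ∏ j ∈ S, q j ^ m' j ∈ GT := fun m' =>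
      GT.prod_mem fun j _ => GT.pow_mem (hq j) _
    rw [prod_insert hk, ← mul_assoc, ih (GT.mul_mem ha (GT.pow_mem (hy k) _)), prod_insert hk,
      sum_insert hk, mul_right_comm, alg_one hy hq h1 h2 k _ (GT.mul_mem ha (hP m)),
      mul_right_comm, mul_assoc, add_assoc]
    have e1 : ∏ j ∈ S, q j ^ Function.update m k (m k - 1) j = ∏ j ∈ S, q j ^ m j :=
      prod_congr rfl fun j hj => by rw [Function.update_of_ne (by rintro rfl; exact hk hj)]
    have e2 : (a * ∏ i ∈ S, q i ^ m i) * q k ^ (m k - 1) =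
        a * ∏ j ∈ insert k S, q j ^ Function.update m k (m k - 1) j := by
      rw [prod_insert hk, e1, Function.update_self, mul_assoc, mul_comm (q k ^ _)]
    have e3 : ∀ i ∈ S, (if m i = 0 then 0 else l i (a * y k ^ m k *
        ∏ j ∈ S, q j ^ Function.update m i (m i - 1) j)) = if m i = 0 then 0 else
        l i (a * ∏ j ∈ insert k S, q j ^ Function.update m i (m i - 1) j) := by
      intro i hi
      have hik : k ≠ i := by rintro rfl; exact hk hi
      refine if_congr Iff.rfl rfl ?_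
      rw [prod_insert hk, Function.update_of_ne hik, mul_right_comm,
        alg_rep hy hq (h3 i k hik) _ (GT.mul_mem ha (hP _)), mul_assoc, mul_comm (q k ^ _)]
    rw [e2, sum_congr rfl e3]

end

/-- **ALG.** -/
theorem alg : ALG := by
  intro T B L _ _ _ GT GB p ψ ψ' I J l c hψ hψ' hp h1 h2 h3 α hα m
  have key := fun a ha => alg_all (J := J) (l := l) (y := fun i => ψ' (some i))
    (q := fun i => p (ψ i)) (fun i => hψ' _) (fun i => hp _ (hψ i)) h1
    (fun i γ hγ => (h2 i γ hγ).1) (fun i j hj γ hγ => (h2 i γ hγ).2.2 j hj) m univ (a := a) ha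
  have hP : ∀ m' : L → ℕ, α * ∏ j, ψ j ^ m' j ∈ GB := fun m' =>
    GB.mul_mem hα (GB.prod_mem fun j _ => GB.pow_mem (hψ j) _)
  have e : ∀ m' : L → ℕ, p α * ∏ j, p (ψ j) ^ m' j = p (α * ∏ j, ψ j ^ m' j) := fun m' => by
    simp only [map_mul, map_prod, map_pow]
  constructor
  · rw [key _ (hp α hα), e, (h3 _ (hP m)).1, zero_add, sum_filter]
    refine sum_congr rfl fun i _ => ?_
    by_cases hi : m i = 0
    · rw [if_pos hi, if_neg (not_not.2 hi)]
    · rw [if_neg hi, if_pos hi, e, (h3 _ (hP _)).2.2 i]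
  · rw [← mul_assoc, key _ (GT.mul_mem (hp α hα) (hψ' none)), sum_eq_zero, add_zero,
      mul_comm (p α), mul_assoc, e, (h3 _ (hP m)).2.1]
    intro i _
    rw [mul_comm (p α), mul_assoc, e, (h2 i _ (hp _ (hP _))).2.1, ite_self]

end Vale.Agent.P269CX
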