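import Vale.Agent.P269CX.Top
import Vale.Agent.P269CE.Cls

/-!
# P269, block C
-/

namespace Vale.Agent.P269CX

/-- **Block C.** -/
theorem bc : P269Z.BC := bc_of P269CE.cls

end Vale.Agent.P269CX
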