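import Vale.Agent.P269CD.Defs
import Vale.Agent.P269CX.Alg

/-!
# P269, block C: the string and dilaton equations from the rows on the universal curve
-/

noncomputable section

namespace Vale.Agent.P269CX

open Finset MvPolynomial Vale.Agent.P269C Vale.Agent.P269CD
open scoped Classical

variable {L : Type} [Fintype L] {g D : ℕ}

theorem iv_eq (A : Atlas g D L) (G : Gm g) (h : Hm L) (P : MvPolynomial ℕ ℂ) (n : L → ℕ) :
    A.iv G h P n = A.int (La A G P * ∏ i, Ps A h i ^ n i) := by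
  refine congrArg A.int (funext fun a => funext fun b => ?_)
  simp only [fm, La, Ps, Pi.mul_apply, Finset.prod_apply, Pi.pow_apply]

theorem uc_ex (sys : SYS) (A : Atlas g D L) : Nonempty (UC A) :=
  ⟨fun a => Classical.choice (sys L D (A.C a) (A.ρ a) (A.kur a) (A.sm a).1 (A.sm a).2.1
    (A.sm a).2.2)⟩

section
variable (pli : PLI) (li : LI) (bas : BAS) (yg : YG) (nb : NB) {A : Atlas g D L} (U : UC A)
  {G : Gm g} {h : Hm L} {h' : Hm (Option L)} (hG : IsLam G) (hh : IsPsi h) (hh' : IsPsi h')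
include bas nb hG hh

theorem mem_GB (P : MvPolynomial ℕ ℂ) (n : L → ℕ) : La A G P * ∏ i, Ps A h i ^ n i ∈ GB A :=
  (GB A).mul_mem (bas.nb (nb.lam A hG P))
    ((GB A).prod_mem fun i _ => (GB A).pow_mem (bas.nb (nb.psi A hh i)) _)

omit hG in
include pli li yg hh' in
theorem tel (n : L → ℕ) {a : U.T} (ha : a ∈ U.G) :
    U.I (a * ∏ i, U.Y h' (some i) ^ n i) = U.I (a * ∏ i, U.p (Ps A h i) ^ n i) +
      ∑ i, if n i = 0 then 0 else
        U.l i (a * ∏ j, U.p (Ps A h j) ^ Function.update n i (n i - 1) j) :=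
  alg_all (GT := U.G) (J := U.I) (l := U.l) (y := fun i => U.Y h' (some i))
    (q := fun i => U.p (Ps A h i)) (fun _ => yg L g D A U h' hh' _)
    (fun i => (bas.p U _ (bas.nb (nb.psi A hh i))).1) (pli L g D A U h' h hh' hh)
    (fun i γ hγ => (li L g D A U h' h hh' hh i γ hγ).1)
    (fun i j hj γ hγ => (li L g D A U h' h hh' hh i γ hγ).2.2 j hj) n univ ha

end

theorem p_mul {A : Atlas g D L} (U : UC A) (α : FB A) (ψ : L → FB A) (n : L → ℕ) :
    U.p α * ∏ j, U.p (ψ j) ^ n j = U.p (α * ∏ j, ψ j ^ n j) := by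
  simp only [map_mul, map_prod, map_pow]

/-- **STR.** -/
theorem str (red : RED) (pli : PLI) (li : LI) (bas : BAS) (yg : YG) (sys : SYS) (nb : NB) :
    STR := by
  intro g D L _ A A' G h h' hG hh hh' hs P n
  obtain ⟨U⟩ := uc_ex sys A
  have hP := mem_GB bas nb (A := A) hG hh P
  have hL : La A G P ∈ GB A := bas.nb (nb.lam A hG P)
  rw [iv_eq, red L g D A U A' G h' hG hh' hs, Fintype.prod_option]
  simp only [Option.elim_none, Option.elim_some, pow_zero, one_mul]
  rw [tel pli li bas yg nb U hh hh' n (bas.p U _ hL).1, p_mul,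
    (bas.p U _ (hP n)).2.1, zero_add, sum_filter]
  refine sum_congr rfl fun i _ => ?_
  by_cases hi : n i = 0
  · rw [if_pos hi, if_neg (not_not.2 hi)]
  · rw [if_neg hi, if_pos hi, p_mul, (bas.p U _ (hP _)).2.2 i, iv_eq]

/-- **DIL.** -/
theorem dil (red : RED) (pli : PLI) (li : LI) (fub : FUB) (bas : BAS) (yg : YG) (sys : SYS)
    (nb : NB) : DIL := by
  intro D L _ A A' G h h' hG hh hh' hs P n
  obtain ⟨U⟩ := uc_ex sys A
  have hP := mem_GB bas nb (A := A) hG hh P
  have hL : La A G P ∈ GB A := bas.nb (nb.lam A hG P)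
  rw [iv_eq, red L 1 D A U A' G h' hG hh' (by omega), Fintype.prod_option]
  simp only [Option.elim_none, Option.elim_some, pow_one]
  rw [← mul_assoc, tel pli li bas yg nb U hh hh' n (U.G.mul_mem
      (bas.p U _ hL).1 (yg L 1 D A U h' hh' none)), sum_eq_zero, add_zero,
    mul_comm (U.p _), mul_assoc, p_mul, fub L D A U h' hh' _ (hP n), iv_eq]
  intro i _
  rw [mul_comm (U.p _), mul_assoc, p_mul,
    (li L 1 D A U h' h hh' hh i _ (bas.p U _ (hP _)).1).2.1, ite_self]

end Vale.Agent.P269CX
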