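import Vale.Agent.P269CX.Lim
import Vale.Agent.P269CI.Keyb

/-!
# P269, block C, row LI: the restriction of the forms to the sections
-/

noncomputable section

namespace Vale.Agent.P269CX

open Set Filter MeasureTheory Vale.Agent.P273.H183 Vale.Agent.P272.K Vale.Agent.P269C
  Vale.Agent.P269CD Vale.Agent.P269CP
open Vale.Agent.P269CT (pt mk Gen HolAt H)
open scoped Topology ContDiff Classical

variable {L : Type} {g D : ℕ} {A : Atlas g D L}

theorem sl_cont : Continuous (sl : Cm D → Cm (D + 1)) :=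
  continuous_iff_continuousAt.2 fun b => (sl_an b).continuousAt

theorem sl_cd (b : Cm D) : ContDiffAt ℝ ∞ (sl : Cm D → Cm (D + 1)) b :=
  (sl_an b).contDiffAt.restrict_scalars ℝ

theorem tr_an {C C' : Fam L D} (c : Ch C) (c' : Ch C') {φ : Cm D → Cm D} {Φ : C.X → C'.X}
    {y : Cm (D + 1)} (hy : y ∈ c.e.target) (hM : Mor C C' φ Φ (c.p y))
    (hs : Φ (c.e.symm y) ∈ c'.e.source) : AnalyticAt ℂ (c.tr c' Φ) y :=
  analyticAt_pi_iff.2 fun k =>
    (holAt c hy).2 _ ((hM.2.2.2 (c.e.symm y) rfl).2 _ (co_hol c' hs k))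

/-- The weights on the section `i`. -/
def ro (U : UC A) (i : L) (j : U.J) (b : Cm D) : ℝ :=
  if (U.c j).ad = some i then U.w j (sl b) else 0

/-- The restriction of a form to the sections. -/
def rs {U : UC A} (γ : U.T) (j : U.J) (b : Cm D) : Po D := pb (jac sl b) (γ j (sl b))

section
variable (U : UC A) (i : L)

theorem ro_sm (j : U.J) : ContDiff ℝ ∞ (ro U i j) ∧ HasCompactSupport (ro U i j) := by
  have hw := (U j.1).sm j.2
  unfold ro
  split_ifs
  · exact ⟨hw.1.comp (contDiff_iff_contDiffAt.2 sl_cd), hw.2.1.comp_isClosedEmbedding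
      (Function.LeftInverse.isClosedEmbedding (f := pr) pr_sl
        (continuous_pi fun k => continuous_apply _) sl_cont)⟩
  · exact ⟨contDiff_const, HasCompactSupport.zero⟩

variable {U i}

theorem ro_ts {j : U.J} {b : Cm D} (hb : b ∈ tsupport (ro U i j)) :
    (U.c j).ad = some i ∧ sl b ∈ (U.c j).e.target := by
  unfold ro at hb
  split_ifs at hb with h
  · exact ⟨h, ((U j.1).sm j.2).2.2 (tsupport_comp_subset_preimage (U.w j) sl_cont hb)⟩
  · simp at hb

theorem ro_B (j : U.J) : tsupport (ro U i j) ⊆ (A.C j.1).B := fun _ hb =>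
  (at_sl _ (ro_ts hb).1 (A.kur j.1).1 (ro_ts hb).2).1

theorem ro_sum (a : Fin A.k) {x : Cm D} (hx : x ∈ (A.C a).B) :
    ∑ k, ro U i ⟨a, k⟩ x = A.ρ a x := by
  have hp := s_mem (A.kur a).1 hx i
  have h1 := (U a).one ((A.C a).s i x)
  rw [hp] at h1
  rw [← h1]
  refine Finset.sum_congr rfl fun k _ => ?_
  show (if ((U a).c k).ad = some i then (U a).w k (sl x) else 0) = _
  by_cases h : ((U a).c k).ad = some i
  · rw [if_pos h]
    split_ifs with hs
    · have h2 := (((U a).c k).on i h _ hs).2.2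
      rw [hp] at h2
      rw [h2]
    · by_contra h0
      exact hs (at_sl _ h (A.kur a).1 (((U a).sm k).2.2 (subset_tsupport _ h0))).2.1
  · rw [if_neg h, if_neg fun hs => ((U a).c k).off i h _ hs (by rw [hp])]

theorem rs_gd (hc : CHN) {γ : U.T} (hγ : γ ∈ U.G) {j : U.J} {b : Cm D}
    (hb : sl b ∈ (U.c j).e.target) : Gd b (rs γ j) := hc.gpb sl b _ (sl_an b) (hγ.1 j _ hb)

theorem rs_nat (hT : TAU) (hc : CHN) (k1 : K1) {γ : U.T} (hγ : γ ∈ U.G) {j j' : U.J}
    (hi : (U.c j).ad = some i) (hi' : (U.c j').ad = some i) {φ Φ} {y : Cm D}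
    (h : ∀ᶠ x in 𝓝 y, Mor (A.C j.1) (A.C j'.1) φ Φ x ∧ sl x ∈ (U.c j).e.target ∧
      sl (φ x) ∈ (U.c j').e.target) : rs γ j y = pb (jac φ y) (rs γ j' (φ y)) := by
  have h1 : ∀ᶠ x in 𝓝 y, (U.c j).p (sl x) = x ∧ Φ ((U.c j).e.symm (sl x)) ∈ (U.c j').e.source ∧
      (U.c j).tr (U.c j') Φ (sl x) = sl (φ x) := by
    filter_upwards [h] with x hx
    obtain ⟨a1, -, -, a4⟩ := at_sl _ hi (A.kur j.1).1 hx.2.1
    obtain ⟨-, b2, b3, -⟩ := at_sl _ hi' (A.kur j'.1).1 hx.2.2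
    have hp := s_mem (A.kur j.1).1 a1 i
    have e := (k1.fg.1 hx.1.2.2.1).2 i hp
    rw [Ch.p, Ch.tr, a4, e]
    exact ⟨hp, b2, b3⟩
  obtain ⟨m1, m2, -⟩ := h.self_of_nhds
  obtain ⟨e1, e2, e3⟩ := h1.self_of_nhds
  have an := tr_an (U.c j) (U.c j') m2 (by rw [e1]; exact m1) e2
  rw [rs, rs, hγ.2 j j' φ Φ _ m2 (by rw [e1]; exact h.mono fun x hx => hx.1) e2, hT.comp, hT.comp,
    ← hc.chain _ _ _ an (sl_an y), ← hc.chain _ _ _ (sl_an _) m1.2.1, e3,
    hc.jc _ _ y (h1.mono fun x hx => hx.2.2)]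

/-- The theorem of Stokes on the section `i`. -/
theorem l_key (hT : TAU) (hc : CHN) (hG : GDC) (key : KEY) (k1 : K1) (u : U.J → Cm D → ℝ)
    (h1 : ∀ j b, (U.c j).ad = some i → sl b ∈ (U.c j).e.target → ContDiffAt ℝ ∞ (u j) b)
    (h2 : ∀ j j' b b' Φ, (U.c j).ad = some i → (U.c j').ad = some i → sl b ∈ (U.c j).e.target →
      sl b' ∈ (U.c j').e.target → Is (A.C j.1) b (A.C j'.1) b' Φ → u j b = u j' b')
    {γ : U.T} (hγ : γ ∈ U.G) :
    ∑ j, ∫ b, ro U i j b * tau (dd (u j) b * rs γ j b) = 0 := by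
  refine key D U.J (ro U i) u (rs γ) (fun j j' y x => if y ∈ (A.C j.1).B ∧ x ∈ (A.C j'.1).B then
    (Iso (A.C j.1) y (A.C j'.1) x).ncard else 0) (ro_sm U i) ?_ ?_ ?_ ?_
  · intro j y hy
    filter_upwards [sl_cont.continuousAt.eventually ((U.c j).e.open_target.mem_nhds (ro_ts hy).2)]
      with x hx
    exact ⟨h1 j x (ro_ts hy).1 hx, hG D x _ (rs_gd hc hγ hx)⟩
  · intro a b y x
    by_cases h : y ∈ (A.C a.1).B ∧ x ∈ (A.C b.1).B
    · rw [if_pos h, if_pos h.symm]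
      exact k1.card (A.kur a.1).1 (A.kur b.1).1 h.1 h.2
    · rw [if_neg h, if_neg fun h' => h h'.symm]
  · intro j y hy
    have hy' := ro_B j hy
    rw [← P269CI.one_at A A j.1 hy', Fintype.sum_sigma]
    refine Finset.sum_congr rfl fun a _ => ?_
    rw [← finsum_sum_comm]
    · refine finsum_congr fun x => ?_
      by_cases hx : x ∈ (A.C a).B
      · rw [← ro_sum (U := U) (i := i) a hx, Finset.mul_sum]
        exact Finset.sum_congr rfl fun k _ => by rw [if_pos ⟨hy', hx⟩]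
      · rw [P269CI.rho_zero A a hx, mul_zero]
        exact Finset.sum_eq_zero fun k _ => by
          rw [if_neg fun h => hx h.2, Nat.cast_zero, zero_mul]
    · intro k _
      obtain ⟨n, φ, Φ, h⟩ := P269CI.cnt k1 (A.kur a) (A.kur j.1).1 hy' (ro_B (U := U) (i := i) ⟨a, k⟩)
        (ro_sm U i ⟨a, k⟩).2
      refine (finite_range fun l => φ l y).subset fun x hx => ?_
      obtain ⟨x1, x2⟩ := mul_ne_zero_iff.1 hx
      have x3 := subset_tsupport _ x2
      rw [if_pos ⟨hy', ro_B _ x3⟩, h.self_of_nhds.2 x x3] at x1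
      obtain ⟨l, hl⟩ := Finset.card_ne_zero.1 (Nat.cast_ne_zero.1 x1)
      exact ⟨l, (Finset.mem_filter.1 hl).2⟩
  · intro j j' y₀ hy
    have hy' := ro_B j hy
    obtain ⟨n, φ, Φ, h⟩ := P269CI.cnt k1 (A.kur j'.1) (A.kur j.1).1 hy' (ro_B (U := U) (i := i) j')
      (ro_sm U i j').2
    refine ⟨n, φ, fun l => (h.self_of_nhds.1 l).2.1, ?_, fun l hl => ?_⟩
    · filter_upwards [h, ev_B (A.kur j.1).1 hy'] with y e1 e2 x hx
      rw [if_pos ⟨e2, ro_B _ hx⟩]
      exact e1.2 x hx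
    · have h3 : ∀ᶠ x in 𝓝 y₀, Mor (A.C j.1) (A.C j'.1) (φ l) (Φ l) x ∧ sl x ∈ (U.c j).e.target ∧
          sl (φ l x) ∈ (U.c j').e.target := (h.mono fun x hx => hx.1 l).and
        ((sl_cont.continuousAt.eventually ((U.c j).e.open_target.mem_nhds (ro_ts hy).2)).and
          ((sl_cont.continuousAt.comp (h.self_of_nhds.1 l).2.1.continuousAt).eventually
            ((U.c j').e.open_target.mem_nhds (ro_ts hl).2)))
      refine mem_inf_of_left ((eventually_eventually_nhds.2 h3).mono fun y e => ?_)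
      obtain ⟨m1, m2, m3⟩ := e.self_of_nhds
      exact ⟨h2 j j' _ _ _ (ro_ts hy).1 (ro_ts hl).1 m2 m3 m1.2.2.1,
        rs_nat hT hc k1 hγ (ro_ts hy).1 (ro_ts hl).1 e⟩

theorem l_eq (γ : U.T) : U.l i γ = ∑ j, ∫ b, ro U i j b * tau (rs γ j b) := by
  refine Finset.sum_congr rfl fun j _ => ?_
  unfold ro
  split_ifs
  · rfl
  · simp

theorem ro_int (hT : TAU) (hc : CHN) (hG : GDC) {γ : U.T} (hγ : γ ∈ U.G) (j : U.J) :
    Integrable fun b => (ro U i j b : ℂ) * tau (rs γ j b) := by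
  have h := ro_sm U i j
  refine Continuous.integrable_of_hasCompactSupport (continuous_iff_continuousAt.2 fun b => ?_)
    (HasCompactSupport.mul_right (h.2.comp_left (g := fun r : ℝ => (r : ℂ)) rfl))
  by_cases hb : b ∈ tsupport (ro U i j)
  · exact (Complex.continuous_ofReal.comp h.1.continuous).continuousAt.mul
      (hT.sm _ b ∞ (hG D b _ (rs_gd hc hγ (ro_ts hb).2)).sm).continuousAt
  · refine (continuousAt_const (y := (0 : ℂ))).congr ?_
    filter_upwards [notMem_tsupport_iff_eventuallyEq.1 hb] with x hx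
    rw [hx]
    simp

/-- Forms which differ by `dd v` along the section have the same integrals. -/
theorem l_cmp (hT : TAU) (hc : CHN) (hG : GDC) (key : KEY) (k1 : K1) (v : U.J → Cm (D + 1) → ℝ)
    {Y Z γ : U.T} (hY : Y ∈ U.G) (hZ : Z ∈ U.G) (hγ : γ ∈ U.G)
    (h1 : ∀ j b, (U.c j).ad = some i → sl b ∈ (U.c j).e.target →
      ContDiffAt ℝ ∞ (v j) (sl b) ∧ Y j (sl b) = Z j (sl b) - dd (v j) (sl b))
    (h2 : ∀ j j' b b' Φ, (U.c j).ad = some i → (U.c j').ad = some i → sl b ∈ (U.c j).e.target →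
      sl b' ∈ (U.c j').e.target → Is (A.C j.1) b (A.C j'.1) b' Φ → v j (sl b) = v j' (sl b')) :
    U.l i (Y * γ) = U.l i (Z * γ) := by
  have h := l_key hT hc hG key k1 (fun j b => v j (sl b))
    (fun j b hi hb => (h1 j b hi hb).1.comp b (sl_cd b)) h2 hγ
  rw [l_eq, l_eq, ← sub_eq_zero, ← neg_eq_zero, neg_sub, ← Finset.sum_sub_distrib, ← h]
  refine Finset.sum_congr rfl fun j _ => ?_
  rw [← integral_sub (ro_int hT hc hG (U.G.mul_mem hZ hγ) j) (ro_int hT hc hG (U.G.mul_mem hY hγ) j)]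
  refine integral_congr_ae (Eventually.of_forall fun b => ?_)
  by_cases hb : ro U i j b = 0
  · simp only [hb, Complex.ofReal_zero, zero_mul, sub_zero]
  · obtain ⟨hi, hs⟩ := ro_ts (subset_tsupport _ hb)
    obtain ⟨e1, e2⟩ := h1 j b hi hs
    have e3 : rs (Z * γ) j b = rs (Y * γ) j b + dd (fun b => v j (sl b)) b * rs γ j b := by
      rw [hc.ddn sl b _ (sl_an b) (e1.of_le two_le)]
      simp only [rs, Pi.mul_apply, e2, map_mul, map_sub]
      ring
    simp only [e3, hT.add]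
    ring

theorem zero_G (U : UC A) : (0 : U.T) ∈ U.G :=
  ⟨fun _ _ _ => (Gd.cst 0).congr (Eventually.of_forall fun _ => by simp),
    fun _ _ _ _ _ _ _ _ => by simp⟩

theorem l_zero (hT : TAU) (γ : U.T) : U.l i (0 * γ) = 0 := by
  have h : tau (0 : Po D) = 0 := by simpa using hT.cmul 0 (0 : Po D)
  simp [l_eq, rs, h]

end

/-- **LI.** -/
theorem li (hT : TAU) (hc : CHN) (hG : GDC) (key : KEY) (k1 : K1) (k2 : K2)
    (yf : YF) (yg : YG) (bas : BAS) (nb : NB) : LI := by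
  intro L _ g D A U h' h hh' hh i γ hγ
  have hb : ∀ o, o = none ∨ o = some i → U.l i (U.Y h' o * γ) = 0 := by
    intro o ho
    choose! v hv using fun (j : U.J) hi => yf.bub (U.c j) hh' (A.kur j.1) i hi o ho
    rw [← l_zero hT γ]
    refine l_cmp hT hc hG key k1 v (yg L g D A U h' hh' o) (zero_G U) hγ (fun j b hi hb => ?_)
      fun j j' b b' Φ hi hi' hb hb' hI => Real.exp_injective ?_
    · exact ⟨(hv j hi _ hb).1, (hv j hi _ hb).2.1.trans (zero_sub _).symm⟩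
    · exact bub_eq k1 k2 hh' (A.kur j.1).1 (A.kur j'.1).1 _ _ hi hi' hb hb' hI ho
        (lim_bub (A.kur j.1).1 _ hi hb (hv j hi _ hb).1.continuousAt fun x hx => (hv j hi x hx).2.2)
        (lim_bub (A.kur j'.1).1 _ hi' hb' (hv j' hi' _ hb').1.continuousAt
          fun x hx => (hv j' hi' x hx).2.2)
  refine ⟨hb _ (Or.inr rfl), hb _ (Or.inl rfl), fun k hk => ?_⟩
  choose v hv using fun j : U.J => yf.rat (U.c j) hh' hh (A.kur j.1) k
  have lim : ∀ (j : U.J) b, (U.c j).ad = some i → sl b ∈ (U.c j).e.target →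
      Tendsto (rat h' h (A.C j.1) k) (ng (A.C j.1) ((A.C j.1).s i b))
        (𝓝 (Real.exp (v j (sl b)))) := fun j b hi hb =>
    lim_of (A.kur j.1).1 _ hi hb (G := fun x => Real.exp (v j x))
      (hv j _ hb).1.continuousAt.rexp fun x hx hg => by
        rw [(hv j x hx).2.2 hg, hi, if_neg fun e => hk (Option.some.inj e).symm, one_mul]
  refine l_cmp hT hc hG key k1 v (yg L g D A U h' hh' _) (bas.p U _ (bas.nb (nb.psi A hh k))).1 hγ
    (fun j b _ hb => ⟨(hv j _ hb).1, (hv j _ hb).2.1⟩)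
    fun j j' b b' Φ hi hi' hb hb' hI => Real.exp_injective ?_
  have hC := (A.kur j.1).1
  have hC' := (A.kur j'.1).1
  have a1 := (at_sl _ hi hC hb).1
  have hp := s_mem hC a1 i
  have := ng_ne k2 hC _ hi hb
  have tΦ := is_ng k1 k2 hC hC' a1 hI hp
  rw [(k1.fg.1 hI).2 i hp] at tΦ
  refine tendsto_nhds_unique_of_eventuallyEq (lim j b hi hb) ((lim j' b' hi' hb').comp tΦ) ?_
  filter_upwards [ng_fib _] with q hq
  exact yf.nat hh' hh hC hC' a1 hI k q (hq.1.trans hp)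

end Vale.Agent.P269CX
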