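import Vale.Agent.P269CD.Defs
import Vale.Agent.P269CP.Psi

/-!
# P269, block C: limits of the metrics at the marked points
-/

noncomputable section

namespace Vale.Agent.P269CX

open Set Filter MeasureTheory Vale.Agent.P273.H183 Vale.Agent.P272.K Vale.Agent.P269C
  Vale.Agent.P269CD Vale.Agent.P269CP
open Vale.Agent.P269CT (pt mk Gen HolAt H)
open scoped Topology ContDiff Classical

variable {L : Type} {D D' m m' : ℕ}

theorem pr_sl (b : Cm D) : pr (sl b) = b := Fin.init_snoc (α := fun _ => ℂ) _ _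

theorem sl_last (b : Cm D) : sl b (Fin.last D) = 0 := Fin.snoc_last (α := fun _ => ℂ) _ _

theorem sl_an (b : Cm D) : AnalyticAt ℂ sl b := by
  refine analyticAt_pi_iff.2 fun k => ?_
  refine Fin.lastCases ?_ (fun j => ?_) k
  · simp only [sl_last]
    exact analyticAt_const
  · simp only [sl, Fin.snoc_castSucc]
    exact (ContinuousLinearMap.proj (R := ℂ) (φ := fun _ : Fin D => ℂ) j).analyticAt b

theorem eq_of_pr {y y' : Cm (D + 1)} (h : pr y = pr y') (h' : y (Fin.last D) = y' (Fin.last D)) :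
    y = y' := by
  funext k
  exact Fin.lastCases h' (fun j => congrFun h j) k

section chart
variable {C : Fam L D} (c : Ch C) {i : L}

theorem holAt {y : Cm (D + 1)} (hy : y ∈ c.e.target) : HolAt C c.e.symm y :=
  ⟨c.e.continuousAt_symm hy, fun f hf => by
    have h := (c.hol _ (c.e.map_target hy) f).1 hf
    rwa [c.e.right_inv hy] at h⟩

theorem co_hol {q : C.X} (hq : q ∈ c.e.source) (k : Fin (D + 1)) : C.hol (fun p => c.e p k) q := by
  refine (c.hol q hq _).2 (AnalyticAt.congr (f := fun y : Cm (D + 1) => y k)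
    ((ContinuousLinearMap.proj (R := ℂ) (φ := fun _ : Fin (D + 1) => ℂ) k).analyticAt _) ?_)
  filter_upwards [c.e.open_target.mem_nhds (c.e.map_source hq)] with y hy
  rw [c.e.right_inv hy]

theorem z_hol {q : C.X} (hq : q ∈ c.e.source) : C.hol c.z q := co_hol c hq _

variable (hi : c.ad = some i)
include hi

theorem at_sl (hC : C.IsStable) {b : Cm D} (hb : sl b ∈ c.e.target) : b ∈ C.B ∧
    C.s i b ∈ c.e.source ∧ c.e (C.s i b) = sl b ∧ c.e.symm (sl b) = C.s i b := by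
  obtain ⟨h1, h2, h3⟩ := c.on i hi _ (c.e.map_target hb)
  rw [c.e.right_inv hb, pr_sl] at h1
  rw [← h1] at h2 h3
  exact ⟨h1 ▸ hC.2.2.1 _, h2, h3, by rw [← h3, c.e.left_inv h2]⟩

theorem z_co {q : C.X} (hq : q ∈ c.e.source) : Co C c.z q := by
  refine ⟨⟨_, z_hol c hq, EventuallyEq.rfl⟩, c.e.source ∩ C.fib (C.π q),
    inter_mem (mem_nhdsWithin_of_mem_nhds (c.e.open_source.mem_nhds hq)) self_mem_nhdsWithin,
    fun x hx y hy e => c.e.injOn hx.1 hy.1 (eq_of_pr ?_ e)⟩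
  rw [(c.on i hi x hx.1).1, (c.on i hi y hy.1).1]
  exact hx.2.trans hy.2.symm

theorem z_s {q : C.X} (hq : q ∈ c.e.source) : c.z (C.s i (C.π q)) = 0 := by
  rw [Ch.z, (c.on i hi q hq).2.2, sl_last]

theorem z_ne {q : C.X} (hq : q ∈ c.e.source) (hg : Gen C q) : c.z q ≠ 0 := by
  intro h0
  obtain ⟨h1, h2, h3⟩ := c.on i hi q hq
  refine hg.2 i (c.e.injOn h2 hq (eq_of_pr ?_ ?_))
  · rw [h3, pr_sl, h1]
  · rw [h3, sl_last]
    exact h0.symm

end chart

/-- Generic points of the fibre near `p`. -/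
def ng (C : Fam L m) (p : C.X) : Filter C.X := nf C p ⊓ 𝓟 {q | Gen C q}

theorem ng_fib {C : Fam L m} (p : C.X) : ∀ᶠ q in ng C p, C.π q = C.π p ∧ Gen C q :=
  inter_mem_inf self_mem_nhdsWithin (mem_principal_self _)

theorem ng_le {C : Fam L m} (p : C.X) : ng C p ≤ 𝓝 p := inf_le_left.trans nhdsWithin_le_nhds

theorem nf_self {C : Fam L m} {p : C.X} {P : C.X → Prop} (h : ∀ᶠ q in nf C p, P q) : P p :=
  h.self_of_nhdsWithin rfl

theorem ng_ne (k2 : K2) {C : Fam L D} (hC : C.IsStable) (c : Ch C) {i : L} (hi : c.ad = some i)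
    {b : Cm D} (hb : sl b ∈ c.e.target) : (ng C (C.s i b)).NeBot := by
  obtain ⟨h1, h2, -, -⟩ := at_sl c hi hC hb
  have hz := z_co c hi h2
  obtain ⟨γ, g1, -, g3⟩ := k2.par hC hz
  have t1 : Tendsto γ (𝓝[≠] (c.z (C.s i b))) (nf C (C.s i b)) := by
    have h := g3.self_of_nhds.2.2.1
    rw [g1] at h
    exact Tendsto.mono_left h.le nhdsWithin_le_nhds
  refine Tendsto.neBot (f := γ) (x := 𝓝[≠] (c.z (C.s i b)))
    (tendsto_inf.2 ⟨t1, tendsto_principal.2 ?_⟩)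
  filter_upwards [t1.eventually (k2.evf hC hz), (t1.mono_right nhdsWithin_le_nhds).eventually
    (c.e.open_source.mem_nhds h2), mem_nhdsWithin_of_mem_nhds g3, self_mem_nhdsWithin]
    with w w1 w2 w3 w4
  refine ⟨⟨_, w1⟩, fun j e => ?_⟩
  by_cases hj : j = i
  · subst hj
    rw [w3.2.1, s_mem hC h1] at e
    exact w4 (by rw [e]; exact w3.1.symm)
  · exact c.off j (by rw [hi]; exact fun e' => hj (Option.some.inj e').symm) _ w2 e.symm

section iso
variable (k1 : K1) (k2 : K2) {C : Fam L m} {C' : Fam L m'} (hC : C.IsStable) (hC' : C'.IsStable)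
  {b : Cm m} {b' : Cm m'} {Φ : C.X → C'.X} (hb : b ∈ C.B) (hI : Is C b C' b' Φ)
include k1 hC hb hI

theorem is_mk {q : C.X} (hq : C.π q = b) (o : Option L) : mk C' (Φ q) o = Φ (mk C q o) := by
  rcases o with _ | j
  · rfl
  · have h1 : C'.π (Φ q) = b' := (k1.mem hI).mapsTo hq
    show C'.s j (C'.π (Φ q)) = Φ (C.s j (C.π q))
    rw [h1, hq, (k1.fg.1 hI).2 j (s_mem hC hb j)]

theorem H_iso {h : Hm (Option L)} (hh : IsPsi h) {q : C.X} (hq : C.π q = b) (o : Option L)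
    {z : C.X → ℂ} {z' : C'.X → ℂ} {d : ℂ} (h1 : Co C z (mk C q o)) (h2 : Co C' z' (mk C' (Φ q) o))
    (h3 : Dr C z (fun x => z' (Φ x)) (mk C q o) d) :
    H h C q o z = ‖d‖ ^ 2 * H h C' (Φ q) o z' := by
  have e : C'.π (Φ q) = b' := (k1.mem hI).mapsTo hq
  subst hq e
  have hI' : Is (pt C q) (C.π q) (pt C' (Φ q)) (C'.π (Φ q)) Φ :=
    k1.fg.2 ⟨(k1.fg.1 hI).1, fun o _ => (is_mk k1 hC hb hI rfl o).symm⟩
  refine hh.1 m m' (pt C q) (pt C' (Φ q)) _ _ _ hI' o z (fun x => z' (Φ x)) z' d (fun o => ?_)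
    h1 h2 (fun _ => rfl) h3
  rcases o with _ | j
  · rfl
  · exact s_mem hC hb j

include k2 hC'

theorem is_gen {q : C.X} (hq : C.π q = b) (hg : Gen C q) : Gen C' (Φ q) := by
  obtain ⟨z, hz⟩ := hg.1
  obtain ⟨z', -, hz'⟩ := k2.ex hC' ((k1.nf hC hC' (k1.fg.1 hI).1 q hq).2.2.2.2.2 (k2.csp hC hz))
  refine ⟨⟨z', hz'⟩, fun j e => hg.2 j ?_⟩
  have h1 := (is_mk k1 hC hb hI hq (some j)).symm.trans e
  refine (k1.mem hI).injOn ?_ hq h1
  show C.π (C.s j (C.π q)) = b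
  rw [hq, s_mem hC hb]

theorem is_ng {p : C.X} (hp : C.π p = b) : Tendsto Φ (ng C p) (ng C' (Φ p)) := by
  refine tendsto_inf.2 ⟨Tendsto.mono_left (k1.nf hC hC' (k1.fg.1 hI).1 p hp).1.le inf_le_left,
    tendsto_principal.2 ?_⟩
  filter_upwards [ng_fib p] with q hq using is_gen k1 k2 hC hC' hb hI (hq.1.trans hp) hq.2

end iso

theorem lim_of {C : Fam L D} (hC : C.IsStable) (c : Ch C) {i : L} (hi : c.ad = some i) {b : Cm D}
    (hb : sl b ∈ c.e.target) {F : C.X → ℝ} {G : Cm (D + 1) → ℝ} (hG : ContinuousAt G (sl b))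
    (h1 : ∀ y ∈ c.e.target, Gen C (c.e.symm y) → F (c.e.symm y) = G y) :
    Tendsto F (ng C (C.s i b)) (𝓝 (G (sl b))) := by
  obtain ⟨-, a2, a3, -⟩ := at_sl c hi hC hb
  rw [← a3] at hG ⊢
  refine (hG.tendsto.comp ((c.e.continuousAt a2).tendsto.mono_left (ng_le _))).congr' ?_
  filter_upwards [ng_fib (C.s i b), ng_le _ (c.e.open_source.mem_nhds a2)] with q q2 q3
  have h := h1 _ (c.e.map_source q3)
  rw [c.e.left_inv q3] at h
  exact (h q2.2).symm

theorem lim_bub {h' : Hm (Option L)} {C : Fam L D} (hC : C.IsStable) (c : Ch C) {i : L}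
    (hi : c.ad = some i) {b : Cm D} (hb : sl b ∈ c.e.target) {v : Cm (D + 1) → ℝ}
    (hv : ContinuousAt v (sl b)) {o : Option L} (h2 : ∀ x ∈ c.e.target, Gen C (c.e.symm x) →
      H h' C (c.e.symm x) o c.z = ‖x (Fin.last D)‖ ^ 2 * Real.exp (v x)) :
    Tendsto (fun q => H h' C q o c.z / ‖c.z q‖ ^ 2) (ng C (C.s i b)) (𝓝 (Real.exp (v (sl b)))) := by
  refine lim_of hC c hi hb (G := fun x => Real.exp (v x)) hv.rexp fun y y2 hg => ?_
  have h0 := z_ne c hi (c.e.map_target y2) hg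
  rw [h2 y y2 hg]
  rw [Ch.z, c.e.right_inv y2] at h0 ⊢
  exact mul_div_cancel_left₀ _ (pow_ne_zero 2 (norm_ne_zero_iff.2 h0))

/-- The limits at the marked point `i` agree. -/
theorem bub_eq (k1 : K1) (k2 : K2) {h' : Hm (Option L)} (hh' : IsPsi h') {C : Fam L D}
    {C' : Fam L D'} (hC : C.IsStable) (hC' : C'.IsStable) (c : Ch C) (c' : Ch C') {i : L}
    (hi : c.ad = some i) (hi' : c'.ad = some i) {b : Cm D} {b' : Cm D'} (hb : sl b ∈ c.e.target)
    (hb' : sl b' ∈ c'.e.target) {Φ : C.X → C'.X} (hI : Is C b C' b' Φ) {o : Option L}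
    (ho : o = none ∨ o = some i) {r r' : ℝ}
    (h1 : Tendsto (fun q => H h' C q o c.z / ‖c.z q‖ ^ 2) (ng C (C.s i b)) (𝓝 r))
    (h2 : Tendsto (fun q => H h' C' q o c'.z / ‖c'.z q‖ ^ 2) (ng C' (C'.s i b')) (𝓝 r')) :
    r = r' := by
  obtain ⟨a1, a2, a3, -⟩ := at_sl c hi hC hb
  obtain ⟨-, a2', a3', -⟩ := at_sl c' hi' hC' hb'
  have := ng_ne k2 hC c hi hb
  have hp := s_mem hC a1 i
  have eΦ := (k1.fg.1 hI).2 i hp
  have tΦ := is_ng k1 k2 hC hC' a1 hI hp
  rw [eΦ] at tΦ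
  have hz := z_co c hi a2
  have hf : Co C (fun x => c'.z (Φ x)) (C.s i b) :=
    ((k1.nf hC hC' (k1.fg.1 hI).1 _ hp).2.2.1 c'.z).1 (by rw [eΦ]; exact z_co c' hi' a2')
  obtain ⟨d, d1, d2⟩ := k2.dr hC hf hz.1
  have d3 := nf_self d2
  have d5 := (k2.ne hC hf hz.1 d3).1 hz
  have tm : Tendsto (fun q => mk C q o) (ng C (C.s i b)) (nf C (C.s i b)) := by
    rcases ho with rfl | rfl
    · exact inf_le_left
    · refine Tendsto.congr' (f₁ := fun _ => C.s i b) ?_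
        (tendsto_const_pure.mono_right (pure_le_nhdsWithin rfl))
      filter_upwards [ng_fib (C.s i b)] with q hq
      show C.s i b = C.s i (C.π q)
      rw [hq.1, hp]
  have z0 : c.z (C.s i b) = 0 := by rw [Ch.z, a3, sl_last]
  have f0 : c'.z (Φ (C.s i b)) = 0 := by rw [eΦ, Ch.z, a3', sl_last]
  have hne : ∀ᶠ q in ng C (C.s i b), c'.z (Φ q) ≠ 0 := by
    filter_upwards [tΦ.eventually (ng_fib _), tΦ.eventually (ng_le _ (c'.e.open_source.mem_nhds a2'))]
      with q q1 q2 using z_ne c' hi' q2 q1.2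
  have tq : Tendsto (fun q => c.z q / c'.z (Φ q)) (ng C (C.s i b)) (𝓝 (d (C.s i b))) := by
    have t := (d3.tendsto_div_nhds_zero.mono_left (inf_le_left : ng C _ ≤ _)).add_const
      (d (C.s i b))
    rw [zero_add] at t
    refine t.congr' ?_
    filter_upwards [hne] with q hq
    rw [z0, f0, sub_zero, sub_zero]
    field_simp
    ring
  have td : Tendsto (fun q => d (mk C q o)) (ng C (C.s i b)) (𝓝 (d (C.s i b))) :=
    (k2.fc hC d1).1.comp tm
  have t := ((td.div tq d5).norm.pow 2).mul (h2.comp tΦ)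
  rw [div_self d5, norm_one, one_pow, one_mul] at t
  refine tendsto_nhds_unique_of_eventuallyEq h1 t ?_
  filter_upwards [hne, ng_fib (C.s i b), ng_le _ (c.e.open_source.mem_nhds a2),
    tm.eventually (k2.evf hC hz), tm.eventually (k2.evf hC hf), tm.eventually d2,
    tm.eventually self_mem_nhdsWithin] with q q1 q2 q3 q4 q5 q6 q7
  have q8 := q2.1.trans hp
  have q9 : Co C' c'.z (mk C' (Φ q) o) := by
    rw [is_mk k1 hC a1 hI q8]
    exact ((k1.nf hC hC' (k1.fg.1 hI).1 _ (q7.trans hp)).2.2.1 c'.z).2 q5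
  have n1 := norm_ne_zero_iff.2 q1
  have n2 := norm_ne_zero_iff.2 (z_ne c hi q3 q2.2)
  simp only [Function.comp_apply, Pi.div_apply, norm_div, H_iso k1 hC a1 hI hh' q8 o q4 q9 q6]
  field_simp

end Vale.Agent.P269CX
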