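import Vale.Agent.P269CX.Fin
import Vale.Agent.P269CX.LI
import Vale.Agent.P269C.Fin
import Vale.Agent.P269C.Chn
import Vale.Agent.P269CB.Main
import Vale.Agent.P269CD.Red
import Vale.Agent.P269CF.AeGen
import Vale.Agent.P269CG.TauRow
import Vale.Agent.P269CI.Bas
import Vale.Agent.P269CI.Ind
import Vale.Agent.P269CS.Sys
import Vale.Agent.P269CK.Iso
import Vale.Agent.P269CL.KeyRow
import Vale.Agent.P269CL.Pli
import Vale.Agent.P269CM.Basn
import Vale.Agent.P269CN.Lam
import Vale.Agent.P269CN.Part
import Vale.Agent.P269CQ.Two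
import Vale.Agent.P269CS.Gen
import Vale.Agent.P269C.T2
import Vale.Agent.P269CF.FubF
import Vale.Agent.P269CV.V03F
import Vale.Agent.P269CW.V11P
import Vale.Agent.P269CL.Wgt
import Vale.Agent.P269CT.T3
import Vale.Agent.P269CV.K2
import Vale.Agent.P269CZ.Main
import Vale.Agent.P269KX.Keyx
import Vale.Agent.P269Z.Stmt

/-!
# P269, block C: the rows put together
-/

noncomputable section

namespace Vale.Agent.P269CX

open Vale.Agent.P269C Vale.Agent.P269CD
open P269CG (tau_row)
open P269CK (k1)
open P269CV (k2)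
open P269CB (gdc)
open P269CF (nul nulx)
open P269CL (key)

theorem rPsi : PSI := P269CP.psi_row tau_row chn k1 k2

theorem rBasn : BASN := P269CM.basn_of k1 k2

theorem rLam : LAM := P269CN.lam_row tau_row chn k1 k2 rBasn

theorem rNb : NB := nb tau_row gdc k1 rPsi rLam

theorem rKeyb : KEYB := P269CI.keyb key k1 nul gdc

theorem rInd : IND := P269CI.ind P269CQ.dc rKeyb rPsi rLam rNb k1 k2 nul tau_row chn gdc

theorem rYf : YF := P269CZ.yf t2

theorem rYg : YG := P269CZ.yg t2

theorem rBas : BAS := P269CI.bas k1 nul tau_row chn gdc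

theorem rSys : SYS := P269CS.sys P269CT.t3

theorem rPli : PLI := P269CL.pli gdc (P269KX.keyx key gdc nulx) rYf

theorem rLi : LI := li tau_row chn gdc key k1 k2 rYf rYg rBas rNb

theorem rPart : PART := P269CN.part P269CS.novf rBasn

theorem rRed : RED :=
  red P269CQ.dc2 t5 nulx nul rYf rPart rBasn rPsi rLam rNb tau_row chn gdc

theorem rStr : STR := str rRed rPli rLi rBas rYg rSys rNb

theorem rDil : DIL := dil rRed rPli rLi P269CF.fub_row rBas rYg rSys rNb

/-- Block C from the classification of smooth curves of genus one. -/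
theorem bc_of (cls : P269CW.CLS) : P269Z.BC :=
  modOK rNb rInd rStr rDil P269CV.v03 (P269CW.v11_cw cls P269CL.wgt)

end Vale.Agent.P269CX
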